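import Vale.Agent.P199.Kurosh.Grow.Lattice
import Vale.Agent.P199.Kurosh.Stmts

/-! Density of the tracked algebra of a full object and closedness of subspaces over Laurent series. -/

open Module Finset

namespace P199K

namespace NS

variable {K : ℕ} {C : Type} [Ring C]

theorem mul_eq_zero_of_low : ∀ (u : List (Fin K)) {n : ℕ} (f g : NS K C),
    (∀ v : List (Fin K), v.length < n → g v = 0) → u.length < n → (f * g) u = 0
  | [], n, f, g, hg, hu => by rw [mul_nil, hg [] hu, mul_zero]
  | a :: u, n, f, g, hg, hu => by
      rw [mul_cons, hg _ hu, mul_zero, zero_add]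
      exact mul_eq_zero_of_low u (shift a f) g hg (by simp only [List.length_cons] at hu; omega)

theorem mul_of_low : ∀ (u : List (Fin K)) {n : ℕ} (f g : NS K C),
    (∀ v : List (Fin K), v.length < n → g v = 0) → u.length ≤ n → (f * g) u = f [] * g u
  | [], _, _, _, _, _ => rfl
  | a :: u, n, f, g, hg, hu => by
      rw [mul_cons, mul_eq_zero_of_low u (shift a f) g hg
        (by simp only [List.length_cons] at hu; omega), add_zero]

variable {B : Type} [Ring B] (ι : C →+* B) (y x : Fin K → B)

theorem trunc_of_low : ∀ (n : ℕ) (f : NS K C),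
    (∀ v : List (Fin K), v.length ≤ n → f v = 0) → trunc ι y n f = 0
  | 0, f, h => by simp [trunc, h [] le_rfl]
  | n + 1, f, h => by
      have h' : ∀ i, trunc ι y n (shift i f) = 0 := fun i =>
        trunc_of_low n _ fun v hv => h (i :: v) (by simp only [List.length_cons]; omega)
      simp [trunc, h [] (Nat.zero_le _), h']

theorem lin_of_low : ∀ (n : ℕ) (f : NS K C),
    (∀ v : List (Fin K), v.length ≤ n → f v = 0) → lin ι y x n f = 0
  | 0, _, _ => rfl
  | n + 1, f, h => by
      have h' : ∀ i, ∀ v : List (Fin K), v.length ≤ n → shift i f v = 0 := fun i v hv =>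
        h (i :: v) (by simp only [List.length_cons]; omega)
      simp [lin, trunc_of_low ι y n _ (h' _), lin_of_low n _ (h' _)]

end NS

/-- In a full object every series is approximated by the tracked algebra. -/
theorem Obj.Full.approx {o : Obj} (hF : o.Full) : ∀ (n : ℕ) (h : NS o.K o.S.C),
    ∃ g ∈ Algebra.adjoin o.S.F (Set.range o.y),
      ∀ w : List (Fin o.K), w.length ≤ n → g w = h w := by
  classical
  have step : ∀ (n : ℕ) (h : NS o.K o.S.C), (∀ v : List (Fin o.K), v.length < n → h v = 0) →
      ∃ g ∈ Algebra.adjoin o.S.F (Set.range o.y),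
        ∀ w : List (Fin o.K), w.length ≤ n → g w = h w := by
    intro n
    induction n with
    | zero =>
        intro h _
        obtain ⟨g, hg, hg0, -⟩ := hF (h []) 0
        refine ⟨g, hg, fun w hw => ?_⟩
        match w with
        | [] => exact hg0
    | succ n ih =>
        intro h hlow
        choose G hG hG0 hG1 using fun i : Fin o.K => hF 0 (Pi.single i 1)
        choose g hg hgw using fun i : Fin o.K => ih (NS.shift i h) (fun v hv =>
          hlow (i :: v) (by simp only [List.length_cons]; omega))
        have hgl : ∀ i, ∀ v : List (Fin o.K), v.length < n → g i v = 0 := fun i v hv => by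
          rw [hgw i v hv.le]
          exact hlow (i :: v) (by simp only [List.length_cons]; omega)
        refine ⟨∑ i, G i * g i, Subalgebra.sum_mem _ fun i _ => Subalgebra.mul_mem _ (hG i) (hg i),
          fun w hw => ?_⟩
        rw [NS.sum_apply]
        match w with
        | [] => simp [hG0, hlow [] (Nat.succ_pos n)]
        | a :: u =>
            have hu : u.length ≤ n := by simp only [List.length_cons] at hw; omega
            have hterm : ∀ i, (G i * g i) (a :: u) = if i = a then g i u else 0 := fun i => by
              rw [NS.mul_cons, hG0, zero_mul, zero_add, NS.mul_of_low u _ _ (hgl i) hu,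
                NS.shift_apply, hG1]
              rcases eq_or_ne i a with rfl | hne
              · simp
              · simp [hne.symm, hne]
            simp only [hterm, Finset.sum_ite_eq', Finset.mem_univ, if_true]
            exact hgw a u hu
  intro n
  induction n with
  | zero => exact fun h => step 0 h fun v hv => absurd hv (by omega)
  | succ n ih =>
      intro h
      obtain ⟨g, hg, hgw⟩ := ih h
      obtain ⟨g', hg', hgw'⟩ := step (n + 1) (h - g) fun v hv => by
        rw [NS.sub_apply, hgw v (by omega), sub_self]
      refine ⟨g + g', Subalgebra.add_mem _ hg hg', fun w hw => ?_⟩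
      rw [NS.add_apply, hgw' w hw, NS.sub_apply]
      abel

/-- Subspaces of tuples over the Laurent stage are closed. -/
theorem Stg.laurent_closed (T : Stg) {N : ℕ}
    (W : Submodule (LaurentSeries T.F) (Fin N → LaurentSeries T.C))
    (x : Fin N → LaurentSeries T.C)
    (h : ∀ n : ℕ, ∃ w ∈ W, ∀ j, OrdGE (n : ℤ) (x j - w j)) : x ∈ W := by
  classical
  by_contra hx
  obtain ⟨Λ, hΛx, hΛ⟩ := Submodule.exists_dual_map_eq_bot_of_notMem hx inferInstance
  set β := Module.finBasis T.F T.C
  set a : Fin N × Fin (finrank T.F T.C) → LaurentSeries T.F := fun ji =>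
    Λ (Pi.single ji.1 (HahnSeries.C (β ji.2) : LaurentSeries T.C)) with ha
  obtain ⟨m, hm⟩ := exists_ordGE_family a
  have hexp : ∀ y : Fin N → LaurentSeries T.C,
      Λ y = ∑ j, ∑ i, (y j).map (β.coord i) * a (j, i) := by
    intro y
    conv_lhs => rw [← Finset.univ_sum_single y]
    rw [map_sum]
    refine Finset.sum_congr rfl fun j _ => ?_
    conv_lhs => rw [laurent_span T (y j)]
    have e : Pi.single (M := fun _ : Fin N => LaurentSeries T.C) j
          (∑ i, algebraMap (LaurentSeries T.F) (LaurentSeries T.C) ((y j).map (β.coord i))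
            * HahnSeries.C (β i))
        = ∑ i, (y j).map (β.coord i) •
            Pi.single (M := fun _ : Fin N => LaurentSeries T.C) j (HahnSeries.C (β i)) := by
      funext l
      rcases eq_or_ne l j with rfl | hne
      · simp [Finset.sum_apply, Algebra.smul_def]
      · simp [Finset.sum_apply, Pi.single_eq_of_ne hne]
    rw [e, map_sum]
    simp only [map_smul, smul_eq_mul, ha]
  refine hΛx (OrdGE.eq_zero fun n => ?_)
  obtain ⟨w, hw, hwo⟩ := h (n + m)
  have hw0 : Λ w = 0 := by
    have : Λ w ∈ W.map Λ := Submodule.mem_map_of_mem hw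
    rw [hΛ] at this
    exact this
  have e : Λ x = Λ (x - w) := by rw [map_sub, hw0, sub_zero]
  rw [e, hexp]
  refine OrdGE.sum _ _ fun j _ => OrdGE.sum _ _ fun i _ => ?_
  have h1 : OrdGE ((n + m : ℕ) : ℤ) (((x - w) j).map (β.coord i)) := fun k hk => by
    show β.coord i (((x - w) j).coeff k) = 0
    rw [Pi.sub_apply, hwo j k hk, map_zero]
  exact (h1.mul (hm (j, i))).mono (by omega)

end P199K
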