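import Vale.Agent.P199.Kurosh.Grow.Lattice
import Vale.Agent.P199.Kurosh.SymKit

/-! Coordinates on series with coefficients in the monomial span, and the gauge space of a point. -/

open Module Finset

namespace P199K

variable {S : Stg} {M : ℕ} (E : Sym S M)

/-- Scalars of the Laurent stage. -/
noncomputable def Sym.lm (E : Sym S M) : LaurentSeries E.T.F →+* LaurentSeries E.T.C :=
  laurentMap (algebraMap E.T.F E.T.C)

theorem Sym.lm_comm (a : LaurentSeries E.T.F) (x : LaurentSeries E.T.C) :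
    E.lm a * x = x * E.lm a :=
  @Algebra.commutes (LaurentSeries E.T.F) (LaurentSeries E.T.C) _ _ (laurentAlgebra E.T) a x

theorem Sym.lm_ordGE {a : LaurentSeries E.T.F} {m : ℤ} (h : OrdGE m a) : OrdGE m (E.lm a) :=
  h.laurentMap _

/-- Series whose coefficients lie in the monomial span. -/
def Sym.EV (E : Sym S M) (v : LaurentSeries E.T.C) : Prop := ∀ n, v.coeff n ∈ E.E

namespace Sym.EV

variable {E} {v w : LaurentSeries E.T.C}

theorem zero : E.EV 0 := fun _ => E.E.zero_mem

theorem add (hv : E.EV v) (hw : E.EV w) : E.EV (v + w) := fun n => by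
  rw [HahnSeries.coeff_add]; exact E.E.add_mem (hv n) (hw n)

theorem sub (hv : E.EV v) (hw : E.EV w) : E.EV (v - w) := fun n => by
  rw [HahnSeries.coeff_sub]; exact E.E.sub_mem (hv n) (hw n)

theorem sum {α : Type} (s : Finset α) (f : α → LaurentSeries E.T.C) (h : ∀ i ∈ s, E.EV (f i)) :
    E.EV (∑ i ∈ s, f i) := fun n => by
  rw [HahnSeries.coeff_sum]; exact Submodule.sum_mem _ fun i hi => h i hi n

theorem mul (hv : E.EV v) (hw : E.EV w) : E.EV (v * w) := fun n => by
  rw [HahnSeries.coeff_mul]; exact Submodule.sum_mem _ fun ij _ => E.mul_mem_E (hv _) (hw _)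

theorem C {e : E.T.C} (he : e ∈ E.E) : E.EV (HahnSeries.C e) := fun n => by
  rw [HahnSeries.C_apply, HahnSeries.coeff_single]
  split_ifs
  · exact he
  · exact E.E.zero_mem

theorem one : E.EV (1 : LaurentSeries E.T.C) := by
  simpa using C (E := E) E.one_mem_E

theorem lm (a : LaurentSeries E.T.F) : E.EV (E.lm a) := fun n => by
  rw [Sym.lm, laurentMap_coeff, Algebra.algebraMap_eq_smul_one]
  exact E.E.smul_mem _ E.one_mem_E

theorem single (m : ℤ) : E.EV (HahnSeries.single m (1 : E.T.C)) := fun n => by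
  rw [HahnSeries.coeff_single]
  split_ifs
  · exact E.one_mem_E
  · exact E.E.zero_mem

theorem comm (hv : E.EV v) (c : S.C) : E.ι c * v = v * E.ι c := Sym.ι_comm_of_mem hv c

end Sym.EV

/-- Dimension of the monomial span. -/
noncomputable def Sym.m (E : Sym S M) : ℕ := finrank E.T.F E.E

theorem Sym.m_pos : 0 < E.m := by
  have : Nontrivial E.E := ⟨⟨⟨1, E.one_mem_E⟩, 0, fun h => one_ne_zero (congrArg Subtype.val h)⟩⟩
  exact Module.finrank_pos

/-- A basis of the monomial span. -/
noncomputable def Sym.εb (E : Sym S M) : Basis (Fin E.m) E.T.F E.E := Module.finBasis E.T.F E.E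

/-- Coordinate functionals extended to the whole algebra. -/
noncomputable def Sym.coordFun (E : Sym S M) (r : Fin E.m) : E.T.C →ₗ[E.T.F] E.T.F :=
  (LinearMap.exists_extend (E.εb.coord r)).choose

theorem Sym.coordFun_apply (r : Fin E.m) (x : E.E) : E.coordFun r x = E.εb.repr x r :=
  LinearMap.congr_fun (LinearMap.exists_extend (E.εb.coord r)).choose_spec x

theorem Sym.sum_coordFun {x : E.T.C} (hx : x ∈ E.E) :
    ∑ r, E.coordFun r x • (E.εb r : E.T.C) = x := by
  have h := congrArg Subtype.val (E.εb.sum_repr ⟨x, hx⟩)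
  simp only [AddSubmonoidClass.coe_finsetSum, SetLike.val_smul] at h
  rw [← h]
  refine Finset.sum_congr rfl fun r _ => ?_
  rw [← E.coordFun_apply r ⟨x, hx⟩, h]

/-- The series with given coordinates. -/
noncomputable def Sym.val (E : Sym S M) (x : Fin E.m → LaurentSeries E.T.F) :
    LaurentSeries E.T.C := ∑ r, E.lm (x r) * HahnSeries.C (E.εb r : E.T.C)

/-- Coordinates of a series. -/
noncomputable def Sym.co (E : Sym S M) (v : LaurentSeries E.T.C) :
    Fin E.m → LaurentSeries E.T.F := fun r => v.map (E.coordFun r)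

theorem Sym.val_coeff (x : Fin E.m → LaurentSeries E.T.F) (n : ℤ) :
    (E.val x).coeff n = ∑ r, (x r).coeff n • (E.εb r : E.T.C) := by
  rw [Sym.val, HahnSeries.coeff_sum]
  refine Finset.sum_congr rfl fun r _ => ?_
  rw [HahnSeries.C_apply, HahnSeries.coeff_mul_single_zero, Sym.lm, laurentMap_coeff,
    Algebra.smul_def]

theorem Sym.val_EV (x : Fin E.m → LaurentSeries E.T.F) : E.EV (E.val x) := fun n => by
  rw [E.val_coeff]; exact Submodule.sum_mem _ fun r _ => E.E.smul_mem _ (E.εb r).2

theorem Sym.val_co {v : LaurentSeries E.T.C} (hv : E.EV v) : E.val (E.co v) = v := by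
  ext n
  rw [E.val_coeff]
  exact E.sum_coordFun (hv n)

theorem Sym.co_val (x : Fin E.m → LaurentSeries E.T.F) : E.co (E.val x) = x := by
  funext r
  ext n
  show E.coordFun r ((E.val x).coeff n) = (x r).coeff n
  rw [E.val_coeff, map_sum]
  simp only [map_smul, smul_eq_mul, E.coordFun_apply, Basis.repr_self, Finsupp.single_apply]
  simp

theorem Sym.co_ordGE {v : LaurentSeries E.T.C} {m : ℤ} (h : OrdGE m v) (r : Fin E.m) :
    OrdGE m (E.co v r) := fun n hn => by
  show E.coordFun r (v.coeff n) = 0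
  rw [h n hn, map_zero]

theorem Sym.val_ordGE {x : Fin E.m → LaurentSeries E.T.F} {m : ℤ} (h : ∀ r, OrdGE m (x r)) :
    OrdGE m (E.val x) :=
  OrdGE.sum _ _ fun r _ => by simpa using (E.lm_ordGE (h r)).mul (OrdGE.C (E.εb r : E.T.C))

theorem Sym.val_add (x y : Fin E.m → LaurentSeries E.T.F) :
    E.val (x + y) = E.val x + E.val y := by
  simp only [Sym.val, Pi.add_apply, map_add, add_mul, Finset.sum_add_distrib]

theorem Sym.val_smul (a : LaurentSeries E.T.F) (x : Fin E.m → LaurentSeries E.T.F) :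
    E.val (a • x) = E.lm a * E.val x := by
  simp only [Sym.val, Finset.mul_sum, Pi.smul_apply, smul_eq_mul, map_mul, mul_assoc]

theorem Sym.val_zero : E.val 0 = 0 := by simp [Sym.val]

theorem Sym.val_sum {α : Type} [Fintype α] (f : α → Fin E.m → LaurentSeries E.T.F) :
    E.val (∑ a, f a) = ∑ a, E.val (f a) := by
  simp only [Sym.val, Finset.sum_apply, map_sum, Finset.sum_mul]
  rw [Finset.sum_comm]

theorem Sym.co_add {v w : LaurentSeries E.T.C} (hv : E.EV v) (hw : E.EV w) :
    E.co (v + w) = E.co v + E.co w := by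
  rw [← E.co_val (E.co v + E.co w), E.val_add, E.val_co hv, E.val_co hw]

theorem Sym.co_smul {v : LaurentSeries E.T.C} (hv : E.EV v) (a : LaurentSeries E.T.F) :
    E.co (E.lm a * v) = a • E.co v := by
  rw [← E.co_val (a • E.co v), E.val_smul, E.val_co hv]

variable {E} {K : ℕ} (P : Point E K)

theorem Point.EV_p (i : Fin K) : E.EV (P.p i) := P.mem i

/-- The gauge map in coordinates. -/
noncomputable def Point.gaugeMap :
    (Fin E.m → LaurentSeries E.T.F) →ₗ[LaurentSeries E.T.F]
      (Fin K × Fin E.m → LaurentSeries E.T.F) where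
  toFun x := fun ir => E.co (E.val x * P.p ir.1 - P.p ir.1 * E.val x) ir.2
  map_add' x y := by
    funext ir
    have h1 := ((E.val_EV x).mul (P.EV_p ir.1)).sub ((P.EV_p ir.1).mul (E.val_EV x))
    have h2 := ((E.val_EV y).mul (P.EV_p ir.1)).sub ((P.EV_p ir.1).mul (E.val_EV y))
    rw [Pi.add_apply, ← Pi.add_apply, ← E.co_add h1 h2, E.val_add]
    simp only [add_mul, mul_add]
    congr 1
    abel_nf
  map_smul' a x := by
    funext ir
    have h1 := ((E.val_EV x).mul (P.EV_p ir.1)).sub ((P.EV_p ir.1).mul (E.val_EV x))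
    rw [RingHom.id_apply, Pi.smul_apply]
    show E.co _ ir.2 = a • E.co _ ir.2
    rw [← Pi.smul_apply, ← E.co_smul h1, E.val_smul, mul_sub, mul_assoc, ← mul_assoc (P.p ir.1),
      ← E.lm_comm a (P.p ir.1), mul_assoc]

theorem Point.gaugeMap_ker : E.co 1 ∈ LinearMap.ker P.gaugeMap := by
  rw [LinearMap.mem_ker]
  funext ir
  show E.co (E.val (E.co 1) * P.p ir.1 - P.p ir.1 * E.val (E.co 1)) ir.2 = 0
  rw [E.val_co Sym.EV.one, one_mul, mul_one, sub_self]
  ext n
  exact map_zero _

theorem Point.finrank_gauge :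
    finrank (LaurentSeries E.T.F) (LinearMap.range P.gaugeMap) + 1 ≤ E.m := by
  have h := LinearMap.finrank_range_add_finrank_ker P.gaugeMap
  rw [Module.finrank_fintype_fun_eq_card, Fintype.card_fin] at h
  have hne : (⟨E.co 1, P.gaugeMap_ker⟩ : LinearMap.ker P.gaugeMap) ≠ 0 := fun h0 => by
    have h2 : E.co 1 = 0 := congrArg Subtype.val h0
    have h1 := congrArg E.val h2
    rw [E.val_co Sym.EV.one, E.val_zero] at h1
    exact one_ne_zero h1
  have : Nontrivial (LinearMap.ker P.gaugeMap) := ⟨⟨_, 0, hne⟩⟩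
  have hpos : 0 < finrank (LaurentSeries E.T.F) (LinearMap.ker P.gaugeMap) := Module.finrank_pos
  omega

/-- The transversal of the gauge: directions, their number, integral splitting and independence. -/
theorem Point.exists_transversal (hK : 2 ≤ K) :
    ∃ (n : ℕ) (q : Fin n → Fin K → LaurentSeries E.T.C), 2 ≤ n ∧ (∀ a i, E.EV (q a i)) ∧
      (∀ a i, OrdGE 0 (q a i)) ∧
      (∀ (c : Fin n → LaurentSeries E.T.F) (e : LaurentSeries E.T.C), E.EV e →
        (∀ i, ∑ a, E.lm (c a) * q a i = e * P.p i - P.p i * e) → ∀ a, c a = 0) ∧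
      ∀ v : Fin K → LaurentSeries E.T.C, (∀ i, E.EV (v i)) → (∀ i, OrdGE 0 (v i)) →
        ∃ (c : Fin n → LaurentSeries E.T.F) (e : LaurentSeries E.T.C), (∀ a, OrdGE 0 (c a)) ∧
          E.EV e ∧ ∀ i, v i = ∑ a, E.lm (c a) * q a i + (e * P.p i - P.p i * e) := by
  obtain ⟨n, q, hn, hdis, hsplit⟩ := exists_complement (LinearMap.range P.gaugeMap)
  have hconv : ∀ (c : Fin n → LaurentSeries E.T.F) (i : Fin K),
      ∑ a, E.lm (c a) * E.val (fun r => HahnSeries.C (q a (i, r)))
        = E.val (fun r => ∑ a, c a * HahnSeries.C (q a (i, r))) := by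
    intro c i
    simp only [← E.val_smul, ← E.val_sum]
    congr 1
    funext r
    simp [Finset.sum_apply]
  refine ⟨n, fun a i => E.val (fun r => HahnSeries.C (q a (i, r))), ?_, fun a i => E.val_EV _,
    fun a i => E.val_ordGE fun r => OrdGE.C _, ?_, ?_⟩
  · simp only [Fintype.card_prod, Fintype.card_fin] at hn
    have h1 := P.finrank_gauge
    have h2 : 2 * E.m ≤ K * E.m := Nat.mul_le_mul_right _ hK
    omega
  · intro c e he h
    refine hdis c ⟨E.co e, ?_⟩
    funext ir
    show E.co (E.val (E.co e) * P.p ir.1 - P.p ir.1 * E.val (E.co e)) ir.2 = _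
    rw [E.val_co he, ← h ir.1, hconv, E.co_val]
  · intro v hv hv0
    obtain ⟨c, hc0, x, hx⟩ := hsplit (fun ir => E.co (v ir.1) ir.2)
      (fun ir => E.co_ordGE (hv0 _) _)
    refine ⟨c, E.val x, hc0, E.val_EV x, fun i => ?_⟩
    have h1 := ((E.val_EV x).mul (P.EV_p i)).sub ((P.EV_p i).mul (E.val_EV x))
    have e2 : E.co (E.val x * P.p i - P.p i * E.val x)
        = fun r => E.co (v i) r - ∑ a, c a * HahnSeries.C (q a (i, r)) := by
      funext r; exact congrFun hx (i, r)
    have e3 : E.co (v i) = (fun r => ∑ a, c a * HahnSeries.C (q a (i, r)))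
        + E.co (E.val x * P.p i - P.p i * E.val x) := by
      rw [e2]; funext r; simp
    calc v i = E.val (E.co (v i)) := (E.val_co (hv i)).symm
      _ = _ := by rw [e3, E.val_add, E.val_co h1, hconv]

end P199K
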