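import Vale.Agent.P199.Kurosh.Eval

/-! Integral families with independent leading coefficients and lattice complements. -/

open Module Finset

namespace P199K

variable {k R : Type} [Field k] [Ring R] [Algebra k R]

theorem coeff_mul_lead {S : Type} [Ring S] {a b : LaurentSeries S} {m n : ℤ} (ha : OrdGE m a)
    (hb : OrdGE n b) : (a * b).coeff (m + n) = a.coeff m * b.coeff n := by
  rw [HahnSeries.coeff_mul]
  refine Finset.sum_eq_single (m, n) (fun ij hij hne => ?_) (fun hnot => ?_)
  · have hs : ij.1 + ij.2 = m + n := (Finset.mem_antidiagonal.mp hij).2.2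
    by_cases h1 : ij.1 < m
    · rw [ha _ h1, zero_mul]
    · by_cases h2 : ij.2 < n
      · rw [hb _ h2, mul_zero]
      · exact absurd (Prod.ext (by omega) (by omega)) hne
  · by_cases h1 : a.coeff m = 0
    · simp [h1]
    · by_cases h2 : b.coeff n = 0
      · simp [h2]
      · exact absurd (Finset.mem_antidiagonal.mpr ⟨h1, h2, rfl⟩) hnot

theorem OrdGE.exists_bound {S : Type} [Ring S] (x : LaurentSeries S) : ∃ m : ℤ, OrdGE m x :=
  ⟨x.order, fun _ hn => HahnSeries.coeff_eq_zero_of_lt_order hn⟩

theorem exists_ordGE_family {α : Type} [Fintype α] {S : Type} [Ring S] (c : α → LaurentSeries S) :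
    ∃ m : ℕ, ∀ a, OrdGE (-(m : ℤ)) (c a) := by
  choose m hm using fun a => OrdGE.exists_bound (c a)
  refine ⟨∑ a, (-m a).toNat, fun a => (hm a).mono ?_⟩
  have h : (-m a).toNat ≤ ∑ b, (-m b).toNat :=
    Finset.single_le_sum (f := fun b => (-m b).toNat) (fun b _ => Nat.zero_le _) (Finset.mem_univ a)
  omega

theorem OrdGE.laurentMap {S S' : Type} [Ring S] [Ring S'] (g : S →+* S') {m : ℤ}
    {x : LaurentSeries S} (hx : OrdGE m x) : OrdGE m (P199K.laurentMap g x) := fun n hn => by
  rw [laurentMap_coeff, hx n hn, map_zero]

variable {α ι : Type} [Fintype α]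

/-- Coefficients of an integral combination of integral vectors with independent residues are
integral. -/
theorem integral_of_indep (u : α → ι → LaurentSeries R) (hu : ∀ a i, OrdGE 0 (u a i))
    (hind : LinearIndependent k (fun a i => (u a i).coeff 0)) (c : α → LaurentSeries k)
    (h : ∀ i, OrdGE 0 (∑ a, laurentMap (algebraMap k R) (c a) * u a i)) : ∀ a, OrdGE 0 (c a) := by
  suffices h' : ∀ m : ℕ, (∀ a, OrdGE (-(m : ℤ)) (c a)) → ∀ a, OrdGE 0 (c a) by
    obtain ⟨m, hm⟩ := exists_ordGE_family c
    exact h' m hm
  intro m
  induction m with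
  | zero => intro hm a; simpa using hm a
  | succ m ih =>
      intro hm
      refine ih fun a => ?_
      have key : ∑ a, (c a).coeff (-((m + 1 : ℕ) : ℤ)) • (fun i => (u a i).coeff 0) = 0 := by
        funext i
        simp only [Finset.sum_apply, Pi.smul_apply, Pi.zero_apply]
        rw [← h i (-((m + 1 : ℕ) : ℤ)) (by omega), HahnSeries.coeff_sum]
        refine Finset.sum_congr rfl fun b _ => ?_
        have := coeff_mul_lead ((hm b).laurentMap (algebraMap k R)) (hu b i)
        rw [add_zero] at this
        rw [this, laurentMap_coeff, Algebra.smul_def]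
      have hz := Fintype.linearIndependent_iff.mp hind _ key a
      intro n hn
      rcases eq_or_ne n (-((m + 1 : ℕ) : ℤ)) with rfl | hne
      · exact hz
      · exact hm a n (by omega)

/-- Integral vectors with independent residues are independent over Laurent series. -/
theorem eq_zero_of_indep (u : α → ι → LaurentSeries R) (hu : ∀ a i, OrdGE 0 (u a i))
    (hind : LinearIndependent k (fun a i => (u a i).coeff 0)) (c : α → LaurentSeries k)
    (h : ∀ i, ∑ a, laurentMap (algebraMap k R) (c a) * u a i = 0) : ∀ a, c a = 0 := by
  intro a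
  refine OrdGE.eq_zero fun n => ?_
  have h' := integral_of_indep u hu hind (fun b => HahnSeries.single (-(n : ℤ)) 1 * c b) (fun i => by
    simp only [map_mul, mul_assoc, ← Finset.mul_sum, h i, mul_zero]
    exact OrdGE.zero) a
  intro j hj
  have h2 := h' (j - (n : ℤ)) (by omega)
  rwa [show j - (n : ℤ) = j + -(n : ℤ) by ring, HahnSeries.coeff_single_mul_add, one_mul] at h2

theorem laurentMap_id (x : LaurentSeries k) : laurentMap (algebraMap k k) x = x := by
  ext n; simp

/-- A lattice complement of a subspace: constant vectors spanning an integral complement. -/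
theorem exists_complement [Fintype ι] (V : Submodule (LaurentSeries k) (ι → LaurentSeries k)) :
    ∃ (n : ℕ) (q : Fin n → ι → k), Fintype.card ι ≤ n + finrank (LaurentSeries k) V ∧
      (∀ c : Fin n → LaurentSeries k,
        (fun i => ∑ a, c a * HahnSeries.C (q a i)) ∈ V → ∀ a, c a = 0) ∧
      ∀ v : ι → LaurentSeries k, (∀ i, OrdGE 0 (v i)) → ∃ c : Fin n → LaurentSeries k,
        (∀ a, OrdGE 0 (c a)) ∧ (fun i => v i - ∑ a, c a * HahnSeries.C (q a i)) ∈ V := by
  classical
  let L : Submodule k (ι → k) :=
    { carrier := {x | ∃ v ∈ V, (∀ i, OrdGE 0 (v i)) ∧ ∀ i, (v i).coeff 0 = x i}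
      zero_mem' := ⟨0, V.zero_mem, fun _ => OrdGE.zero, fun _ => rfl⟩
      add_mem' := by
        rintro x y ⟨v, hv, hv0, hvx⟩ ⟨w, hw, hw0, hwy⟩
        exact ⟨v + w, V.add_mem hv hw, fun i => (hv0 i).add (hw0 i), fun i => by simp [hvx, hwy]⟩
      smul_mem' := by
        rintro r x ⟨v, hv, hv0, hvx⟩
        refine ⟨(HahnSeries.C r : LaurentSeries k) • v, V.smul_mem _ hv,
          fun i => by simpa using (OrdGE.C r).mul (hv0 i), fun i => ?_⟩
        simp [HahnSeries.C_apply, hvx] }
  obtain ⟨L', hL'⟩ := L.exists_isCompl
  let βL := Module.finBasis k L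
  let βQ := Module.finBasis k L'
  have hlift : ∀ j : Fin (finrank k L), ∃ v ∈ V, (∀ i, OrdGE 0 (v i)) ∧
      ∀ i, (v i).coeff 0 = (βL j : ι → k) i := fun j => (βL j).2
  choose g hgV hg0 hgc using hlift
  set n := finrank k L' with hn
  set q : Fin n → ι → k := fun a => (βQ a : ι → k) with hq
  let u : Fin n ⊕ Fin (finrank k L) → ι → LaurentSeries k :=
    Sum.elim (fun a i => HahnSeries.C (q a i)) g
  have hu : ∀ a i, OrdGE 0 (u a i) := by
    rintro (a | j) i
    · exact OrdGE.C _
    · exact hg0 j i
  have hres : (fun a i => (u a i).coeff 0)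
      = Sum.elim (fun a => (βQ a : ι → k)) (fun j => (βL j : ι → k)) := by
    funext a i
    rcases a with a | j
    · simp [u, hq, HahnSeries.C_apply]
    · simp [u, hgc]
  have hind : LinearIndependent k (fun a i => (u a i).coeff 0) := by
    rw [hres]
    refine LinearIndependent.sum_type ?_ ?_ ?_
    · exact βQ.linearIndependent.map' L'.subtype (Submodule.ker_subtype _)
    · exact βL.linearIndependent.map' L.subtype (Submodule.ker_subtype _)
    · refine hL'.symm.disjoint.mono ?_ ?_ <;> rw [Submodule.span_le]
      · rintro _ ⟨a, rfl⟩; exact (βQ a).2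
      · rintro _ ⟨j, rfl⟩; exact (βL j).2
  have hzero : ∀ c : Fin n ⊕ Fin (finrank k L) → LaurentSeries k,
      (∀ i, ∑ a, c a * u a i = 0) → ∀ a, c a = 0 := fun c hc =>
    eq_zero_of_indep u hu hind c (fun i => by simp only [laurentMap_id]; exact hc i)
  have hindLS : LinearIndependent (LaurentSeries k) u :=
    Fintype.linearIndependent_iff.mpr fun c hc => hzero c fun i => by
      have := congrFun hc i
      simpa [Finset.sum_apply] using this
  have hcard : Fintype.card (Fin n ⊕ Fin (finrank k L)) = Fintype.card ι := by
    have := Submodule.finrank_add_eq_of_isCompl hL'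
    rw [Module.finrank_fintype_fun_eq_card] at this
    simp only [Fintype.card_sum, Fintype.card_fin]
    omega
  refine ⟨n, q, ?_, ?_, ?_⟩
  · have hg : LinearIndependent (LaurentSeries k) (fun j => (⟨g j, hgV j⟩ : V)) :=
      LinearIndependent.of_comp V.subtype (hindLS.comp Sum.inr Sum.inr_injective)
    have h1 := hg.fintype_card_le_finrank
    simp only [Fintype.card_fin] at h1
    simp only [Fintype.card_sum, Fintype.card_fin] at hcard
    omega
  · intro c hc a
    have hcV := hc
    have hspan : (fun i => ∑ a, c a * HahnSeries.C (q a i))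
        ∈ Submodule.span (LaurentSeries k) (Set.range g) := by
      have hle : Submodule.span (LaurentSeries k) (Set.range g) ≤ V :=
        Submodule.span_le.mpr (by rintro _ ⟨j, rfl⟩; exact hgV j)
      have htop := hindLS.span_eq_top_of_card_eq_finrank' (by
        rw [hcard, Module.finrank_fintype_fun_eq_card])
      suffices hVle : V ≤ Submodule.span (LaurentSeries k) (Set.range g) from hVle hcV
      intro v hv
      obtain ⟨m, hm⟩ := exists_ordGE_family v
      set v' := (HahnSeries.single (m : ℤ) 1 : LaurentSeries k) • v with hv'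
      have hv'0 : ∀ i, OrdGE 0 (v' i) := fun i => by
        have := (OrdGE.single (le_refl (m : ℤ)) (1 : k)).mul (hm i)
        simpa [hv'] using this
      obtain ⟨d, hd⟩ := (Submodule.mem_span_range_iff_exists_fun _).mp
        (htop ▸ Submodule.mem_top : v' ∈ Submodule.span (LaurentSeries k) (Set.range u))
      set w := v' - ∑ j, d (Sum.inr j) • g j with hw
      have hwV : w ∈ V := V.sub_mem (V.smul_mem _ hv)
        (Submodule.sum_mem _ fun j _ => V.smul_mem _ (hgV j))
      have hdi : ∀ b, OrdGE 0 (d b) := integral_of_indep u hu hind d fun i => by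
        have := congrFun hd i
        simp only [Finset.sum_apply, Pi.smul_apply, smul_eq_mul] at this
        simp only [laurentMap_id]; rw [this]; exact hv'0 i
      have hwi : ∀ i, w i = ∑ a, d (Sum.inl a) * HahnSeries.C (q a i) := fun i => by
        have := congrFun hd i
        simp only [Finset.sum_apply, Pi.smul_apply, smul_eq_mul, Fintype.sum_sum_type, u,
          Sum.elim_inl, Sum.elim_inr] at this
        simp only [hw, Pi.sub_apply, Finset.sum_apply, Pi.smul_apply, smul_eq_mul, ← this]
        abel
      have hw0 : w = 0 := by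
        by_contra hne
        have hex : ∃ (N : ℕ) (a : Fin n), (d (Sum.inl a)).coeff N ≠ 0 := by
          by_contra hno
          push Not at hno
          refine hne (funext fun i => ?_)
          have hz : ∀ a, d (Sum.inl a) = 0 := fun a => by
            ext j
            rcases lt_or_ge j 0 with hj | hj
            · exact hdi _ j hj
            · lift j to ℕ using hj
              exact hno j a
          simp [hwi, hz]
        set N := Nat.find hex with hN
        have hNge : ∀ a, OrdGE (N : ℤ) (d (Sum.inl a)) := fun a j hj => by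
          rcases lt_or_ge j 0 with hj' | hj'
          · exact hdi _ j hj'
          · lift j to ℕ using hj'
            by_contra hne'
            exact Nat.find_min hex (by omega : j < N) ⟨a, hne'⟩
        have hx : (fun i => ∑ a, (d (Sum.inl a)).coeff (N : ℤ) * q a i) ∈ L := by
          refine ⟨(HahnSeries.single (-(N : ℤ)) 1 : LaurentSeries k) • w, V.smul_mem _ hwV,
            fun i => ?_, fun i => ?_⟩
          · have hwN : OrdGE (N : ℤ) (w i) := by
              rw [hwi]
              exact OrdGE.sum _ _ fun a _ => by simpa using (hNge a).mul (OrdGE.C (q a i))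
            simpa using (OrdGE.single (le_refl (-(N : ℤ))) (1 : k)).mul hwN
          · rw [Pi.smul_apply, smul_eq_mul, show (0 : ℤ) = (N : ℤ) + -(N : ℤ) by ring,
              HahnSeries.coeff_single_mul_add, one_mul, hwi, HahnSeries.coeff_sum]
            refine Finset.sum_congr rfl fun a _ => ?_
            rw [HahnSeries.C_apply, HahnSeries.coeff_mul_single_zero]
        have hx' : (fun i => ∑ a, (d (Sum.inl a)).coeff (N : ℤ) * q a i) ∈ L' := by
          have e : (fun i => ∑ a, (d (Sum.inl a)).coeff (N : ℤ) * q a i)
              = ∑ a, (d (Sum.inl a)).coeff (N : ℤ) • (βQ a : ι → k) := by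
            funext i; simp [hq, Finset.sum_apply]
          rw [e]
          exact Submodule.sum_mem _ fun a _ => L'.smul_mem _ (βQ a).2
        have h0 : ∑ a, (d (Sum.inl a)).coeff (N : ℤ) • βQ a = 0 := by
          apply Subtype.ext
          have := Submodule.disjoint_def.mp hL'.disjoint _ hx hx'
          funext i
          simpa [hq, Finset.sum_apply] using congrFun this i
        obtain ⟨a, ha⟩ := Nat.find_spec hex
        exact ha (Fintype.linearIndependent_iff.mp βQ.linearIndependent _ h0 a)
      have hv'g : v' ∈ Submodule.span (LaurentSeries k) (Set.range g) := by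
        have e : v' = ∑ j, d (Sum.inr j) • g j := sub_eq_zero.mp hw0
        rw [e]
        exact Submodule.sum_mem _ fun j _ =>
          Submodule.smul_mem _ _ (Submodule.subset_span ⟨j, rfl⟩)
      have e : v = (HahnSeries.single (-(m : ℤ)) 1 : LaurentSeries k) • v' := by
        rw [hv', smul_smul, HahnSeries.single_mul_single, neg_add_cancel, mul_one,
          HahnSeries.single_zero_one, one_smul]
      rw [e]
      exact Submodule.smul_mem _ _ hv'g
    obtain ⟨d, hd⟩ := (Submodule.mem_span_range_iff_exists_fun _).mp hspan
    have := hzero (Sum.elim c (fun j => -d j)) (fun i => by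
      have h1 := congrFun hd i
      simp only [Finset.sum_apply, Pi.smul_apply, smul_eq_mul] at h1
      simp [Fintype.sum_sum_type, u, h1]) (Sum.inl a)
    simpa using this
  · intro v hv
    obtain ⟨d, hd⟩ := (Submodule.mem_span_range_iff_exists_fun _).mp
      ((hindLS.span_eq_top_of_card_eq_finrank' (by
        rw [hcard, Module.finrank_fintype_fun_eq_card])) ▸ Submodule.mem_top :
        v ∈ Submodule.span (LaurentSeries k) (Set.range u))
    have hdi : ∀ b, OrdGE 0 (d b) := integral_of_indep u hu hind d fun i => by
      have := congrFun hd i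
      simp only [Finset.sum_apply, Pi.smul_apply, smul_eq_mul] at this
      simp only [laurentMap_id]; rw [this]; exact hv i
    refine ⟨fun a => d (Sum.inl a), fun a => hdi _, ?_⟩
    have e : (fun i => v i - ∑ a, d (Sum.inl a) * HahnSeries.C (q a i))
        = ∑ j, d (Sum.inr j) • g j := by
      funext i
      have h1 := congrFun hd i
      simp only [Finset.sum_apply, Pi.smul_apply, smul_eq_mul, Fintype.sum_sum_type, u,
        Sum.elim_inl, Sum.elim_inr] at h1
      simp only [Finset.sum_apply, Pi.smul_apply, smul_eq_mul, ← h1]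
      abel
    rw [e]
    exact Submodule.sum_mem _ fun j _ => V.smul_mem _ (hgV j)

end P199K
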